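import Vale.Agent.P281.H716.TL.Fin
import Vale.Agent.P281.H167.RC.Main
import Vale.Agent.P281.H455.RC.Curve
import Vale.Agent.P281.H156.RC.Clos
import Vale.Agent.P281.H156.RC.Dens
import Vale.Agent.P281.H498.TL.TensT
import Vale.Agent.P281.H455.TL.Comp

/-! P281, theorem RC over theorem TL. -/

namespace Vale.Agent.P281.H716.TL

open Vale.Agent.P281

/-- **Theorem RC.** -/
theorem mainPartR : H167.RC.MainPartR :=
  H167.RC.mainPartR_of H455.RC.curvePart H156.RC.closPart H156.RC.densPart H498.tensT mainPartT

/-- the comparison with the orbifold base -/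
theorem compPartT : H713.TL.CompPartT := H455.TL.compPartT

end Vale.Agent.P281.H716.TL
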