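import Vale.Agent.P281.H716.TL.Abs
import Vale.Agent.P281.H716.LD.Asm

/-! P281, theorem TL: assembly. -/

open scoped Manifold ContDiff Topology ComplexOrder
open Set Filter Vale.Agent.P281 Vale.Agent.P272.K Vale.Agent.P299
open Vale.Agent.P299.H882 (xi)

set_option linter.all false

noncomputable section

namespace Vale.Agent.P281.H716.TL

open Vale.Agent.P281.MF Vale.Agent.P281.ISO
open Vale.Agent.P281.H713 Vale.Agent.P281.H713.SA Vale.Agent.P281.H713.KD Vale.Agent.P281.H716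
open Vale.Agent.P281.H716.IsSys Vale.Agent.P281.H716.KL
open Vale.Agent.P281.H167.KG (SysLoc SysDat LocAt FormPartG GrowthPartG MetPartG exists_sysDat
  sysLoc_id)
open Vale.Agent.P281.H713.TL (IsPullSection kodF ConstT AbsPartT MainPartT BridgeT)

/-- a smooth fibre gives a point where `f` is submersive -/
theorem exists_submersive {n p d : ℕ} {Z Y F : Type} [TopologicalSpace Z] [ChartedSpace (Cm n) Z]
    [TopologicalSpace Y] [ChartedSpace (Cm p) Y] [TopologicalSpace F] [ChartedSpace (Cm d) F]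
    [Nonempty F] {f : Z → Y} {i : F → Z} (hi : IsSmoothFibre (Cm n) (Cm p) (Cm d) f i) :
    ∃ z, Function.Surjective (mfderiv 𝓘(ℂ, Cm n) 𝓘(ℂ, Cm p) f z) :=
  ⟨i (Classical.arbitrary F), hi.submersive _⟩

theorem mainPartT_of (hform : FormPartG) (hgr : GrowthPartG) (hmet : MetPartG)
    (hnull : NullPart') (hcore : CorePartLG) (hbr : BridgeT) (hfib : FibPartGL) :
    MainPartT := by
  intro n p d hnpd X Z Y F _ _ _ _ _ _ _ _ _ _ _ _ _ _ _ _ _ _ _ _ χ hχ Δ Δ₀ hΔ hΔ₀ hle t ht ht1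
    m N hm k hk S hS m' N' hm' k' hk' S' hS' j hj f hf i hi hne ν hν β hβ
    hgood νF hνF βF hβF hNF
  classical
  set T : Finset (Set X) := hΔ.1.toFinset with hTdef
  have hTΔ : ∀ D, D ∈ T ↔ Δ D ≠ 0 := fun D => Set.Finite.mem_toFinset _
  have hTex : ∀ D ∈ T, ∀ x, ∃ g, J.IsLocalEq (Cm n) D g x := fun D hD =>
    (hΔ.2.1 D ((hTΔ D).1 hD)).2.1
  have hsX : IsSys n (eqL n) T := isSys_eqL hTex
  have hΔ₀0 : ∀ D, 0 ≤ Δ₀ D := by
    intro D
    obtain ⟨q, hq, hq0, hq1⟩ := hΔ₀ D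
    rw [hq]
    exact_mod_cast hq0
  have hzero : ∀ D, Δ D = 0 → Δ₀ D = 0 := fun D hD => le_antisymm (hD ▸ hle D) (hΔ₀0 D)
  have hksupp : ∀ D, k D ≠ 0 → D ∈ T := by
    intro D hD
    refine (hTΔ D).2 fun h0 => hD ?_
    have h1 := hk D
    rw [hzero D h0, mul_zero] at h1
    exact_mod_cast h1
  have hk'supp : ∀ D, k' D ≠ 0 → D ∈ T := by
    intro D hD
    refine (hTΔ D).2 fun h0 => hD ?_
    have h1 := hk' D
    rw [hzero D h0, h0, sub_self, mul_zero, add_zero, mul_zero] at h1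
    exact_mod_cast h1
  obtain ⟨M, Dv, r, R, m₀, R', hinj, hDv, hBd, hm₀, hRo, hRd, hX⟩ := LD.core_GL hform hgr hmet hnull
    hcore hχ hΔ hΔ₀ hle ht ht1 hm hk hS hm' hk' hS' hν hβ hgood
  have hXY : ∀ 𝒢 : Set (Set Y), 𝒢.Finite → (∀ G ∈ 𝒢, J.IsPrime (Cm p) G) →
      ConstT n p j f 𝒢 Δ (prodF S S') R' := fun 𝒢 h1 h2 =>
    hbr n p M X Z Y χ hχ j hj f hf (exists_submersive hi) 𝒢 h1 h2 Δ hΔ Dv hinj hDv r R hBd m₀ hm₀
      (N * N') (prodF S S') R' hX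
  obtain ⟨RF, hRFd, hRF0, hF⟩ := hfib n p d hnpd X Z Y F χ hχ Δ Δ₀ hΔ hΔ₀ hle t ht ht1 m N hm k hk S
    hS m' N' hm' k' hk' S' hS' j hj f hf i hi hne νF hνF βF hβF hNF
  refine main_absT hnpd hΔ hj hf hi hne (mP := m + m')
    (Nat.add_pos_left hm m') (kP := k + k') (fun D => ?_) (P := prodF S S')
    (fun b => hsX.mul hksupp hk'supp (hS _) (hS' _)) hRo hRd hXY hRFd hF hRF0
  rw [Pi.add_apply]
  push_cast
  rw [hk D, hk' D, add_mul]
  have h1 : Δ₀ D + t * (Δ D - Δ₀ D) ≤ Δ D := by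
    have := mul_le_mul_of_nonneg_right ht1 (sub_nonneg.2 (hle D))
    linarith
  exact add_le_add (mul_le_mul_of_nonneg_left (hle D) (Nat.cast_nonneg _))
    (mul_le_mul_of_nonneg_left h1 (Nat.cast_nonneg _))

end Vale.Agent.P281.H716.TL
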