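import Vale.Agent.P281.H716.TL.Asm
import Vale.Agent.P281.H716.KL.Fin
import Vale.Agent.P281.H498.TL.Fin

/-! P281, theorem TL. -/

namespace Vale.Agent.P281.H716.TL

open Vale.Agent.P281

/-- **Theorem TL.** -/
theorem mainPartT : H713.TL.MainPartT :=
  mainPartT_of H342.KG.formPartG H368.KG.growthPartG H342.KG.metPartG H368.KG.nullPart
    H716.KL.corePartLG H498.bridgeT H716.KL.fibPartGL

end Vale.Agent.P281.H716.TL
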