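import Vale.Agent.P281.H949.TL.Key
import Vale.Agent.P281.H713.TL.Iface

namespace Vale.Agent.P281.H716.TL

theorem keyPartT : Vale.Agent.P281.H713.TL.KeyPartT := Vale.Agent.P281.H949.TL.keyT

end Vale.Agent.P281.H716.TL
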